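import Vale.Agent.P113.Rho

/-!
# P113 : one-dimensional ingredients of the flow: affine flows, plateau cutoffs, time profiles
-/

open MeasureTheory Set Filter Topology

namespace Vale.Agent.P113

/-! ### affine flows on the line -/

/-- the constant term of the affine field whose time-one map is `x ↦ c + r (x - a)`;
the linear coefficient is `log r` -/
noncomputable def beta (a c r : ℝ) : ℝ :=
  if r = 1 then c - a else -(Real.log r * ((c - r * a) / (1 - r)))

/-- the path of the affine field -/
noncomputable def aff (a c r x τ : ℝ) : ℝ :=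
  if r = 1 then x + τ * (c - a) else
    (c - r * a) / (1 - r) + (x - (c - r * a) / (1 - r)) * Real.exp (τ * Real.log r)

lemma aff_zero (a c r x : ℝ) : aff a c r x 0 = x := by
  unfold aff; split_ifs <;> simp

lemma aff_one {a c r : ℝ} (hr : 0 < r) (x : ℝ) : aff a c r x 1 = c + r * (x - a) := by
  unfold aff
  split_ifs with h
  · subst h; ring
  · rw [one_mul, Real.exp_log hr]
    have h1 : (1 - r) ≠ 0 := sub_ne_zero.mpr (Ne.symm h)
    field_simp
    ring_nf

lemma hasDerivAt_aff (a c r x τ : ℝ) :
    HasDerivAt (aff a c r x) (Real.log r * aff a c r x τ + beta a c r) τ := by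
  unfold aff beta
  split_ifs with h
  · subst h
    have h1 : HasDerivAt (fun τ : ℝ => x + τ * (c - a)) (1 * (c - a)) τ :=
      ((hasDerivAt_id τ).mul_const (c - a)).const_add x
    simpa using h1
  · set p := (c - r * a) / (1 - r)
    have h1 : HasDerivAt (fun τ : ℝ => Real.exp (τ * Real.log r))
        (Real.exp (τ * Real.log r) * (1 * Real.log r)) τ :=
      ((hasDerivAt_id τ).mul_const (Real.log r)).exp
    have h2 := (h1.const_mul (x - p)).const_add p
    have e : Real.log r * (p + (x - p) * Real.exp (τ * Real.log r)) + -(Real.log r * p) =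
        (x - p) * (Real.exp (τ * Real.log r) * (1 * Real.log r)) := by ring
    rw [e]
    exact h2

/-- the path is monotone or antitone in the time, so it stays between its end points -/
lemma aff_mem {a c r x lo hi τ : ℝ} (hr : 0 < r) (h0 : 0 ≤ τ) (h1 : τ ≤ 1)
    (hx : x ∈ Icc lo hi) (hy : c + r * (x - a) ∈ Icc lo hi) : aff a c r x τ ∈ Icc lo hi := by
  rw [← aff_one hr] at hy
  unfold aff at hy ⊢
  split_ifs with h
  · rw [if_pos h] at hy
    rw [mem_Icc] at hx hy ⊢
    constructor <;> nlinarith
  · rw [if_neg h] at hy
    set p := (c - r * a) / (1 - r)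
    -- the exponential is between `1` and `r`
    have key : ∃ θ : ℝ, 0 ≤ θ ∧ θ ≤ 1 ∧
        Real.exp (τ * Real.log r) = (1 - θ) * 1 + θ * Real.exp (1 * Real.log r) := by
      have he : Real.exp (τ * Real.log r) ∈ segment ℝ 1 (Real.exp (1 * Real.log r)) := by
        rw [segment_eq_uIcc]
        rcases le_total 0 (Real.log r) with hl | hl
        · rw [mem_uIcc]
          left
          constructor
          · rw [← Real.exp_zero]; exact Real.exp_le_exp.mpr (by positivity)
          · exact Real.exp_le_exp.mpr (by nlinarith)
        · rw [mem_uIcc]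
          right
          constructor
          · exact Real.exp_le_exp.mpr (by nlinarith)
          · rw [← Real.exp_zero]; exact Real.exp_le_exp.mpr (by nlinarith)
      obtain ⟨u, v, hu, hv, huv, he⟩ := he
      refine ⟨v, hv, by linarith, ?_⟩
      rw [← he, smul_eq_mul, smul_eq_mul, ← huv]
      ring
    obtain ⟨θ, hθ0, hθ1, hE⟩ := key
    rw [hE]
    set F := Real.exp (1 * Real.log r)
    have e : p + (x - p) * ((1 - θ) * 1 + θ * F) = (1 - θ) * x + θ * (p + (x - p) * F) := by ring
    rw [e]
    rw [mem_Icc] at hx hy ⊢
    constructor <;> nlinarith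

end Vale.Agent.P113
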