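import Vale.Agent.P113.H468.Lin
import Vale.Agent.P113.H760.Interface
import Vale.Agent.P113.PDE.Basic

/-!
# P113 : the periodic velocity field of a piecewise affine system and its exact paths
-/

open MeasureTheory Set Filter Topology

namespace Vale.Agent.P113

open H760 PDE

/-- the boxes have distance at least `d` in one of the two coordinates -/
def SepBy (d : ℚ) (B B' : Box) : Prop :=
  (B.a1 + B.w1 + d ≤ B'.a1 ∨ B'.a1 + B'.w1 + d ≤ B.a1) ∨
    (B.a2 + B.w2 + d ≤ B'.a2 ∨ B'.a2 + B'.w2 + d ≤ B.a2)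

/-- an admissible margin for the cutoffs of `F` -/
structure Margin (F : PAM) (δ : ℚ) : Prop where
  pos : 0 < δ
  le : δ ≤ 1 / 8
  src : ∀ i j, i ≠ j → SepBy (2 * δ) (F.rule i).src (F.rule j).src
  halt : ∀ i j, SepBy (2 * δ) (F.rule i).src (F.halt j)
  tgt : ∀ i j, i ≠ j → SepBy (2 * δ) (F.rule i).tgt (F.rule j).tgt

/-- cutoff function of a box -/
noncomputable def bx (B : Box) (δ : ℚ) (x : E3) : ℝ :=
  lin 0 1 B.a1 ((B.a1 + B.w1 : ℚ) : ℝ) δ (x 0) * lin 0 1 B.a2 ((B.a2 + B.w2 : ℚ) : ℝ) δ (x 1)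

/-- the height of the slab of the rule `i` -/
def hgt (F : PAM) (i : Fin F.n) : ℚ := (i + 1) / (4 * (F.n + 1))

/-- the margin of the slabs -/
def dl (F : PAM) : ℚ := 1 / (8 * (F.n + 1))

/-- `(x₁ ↦ (α x₁ + β) χ(x₁))` for the first coordinate of the rule -/
noncomputable def g1 (R : Rule) (s : ℝ) : ℝ :=
  lin (Real.log R.r1) (beta R.src.a1 R.c1 R.r1) (1 / 4) (3 / 4) (1 / 8) s

noncomputable def g1' (R : Rule) (s : ℝ) : ℝ :=
  lin' (Real.log R.r1) (beta R.src.a1 R.c1 R.r1) (1 / 4) (3 / 4) (1 / 8) s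

noncomputable def g2 (R : Rule) (s : ℝ) : ℝ :=
  lin (Real.log R.r2) (beta R.src.a2 R.c2 R.r2) (1 / 4) (3 / 4) (1 / 8) s

noncomputable def g2' (R : Rule) (s : ℝ) : ℝ :=
  lin' (Real.log R.r2) (beta R.src.a2 R.c2 R.r2) (1 / 4) (3 / 4) (1 / 8) s

/-- `(x₃ - h) χ(x₃)` for the slab of height `h` -/
noncomputable def q3 (F : PAM) (i : Fin F.n) (s : ℝ) : ℝ :=
  lin 1 (-(hgt F i : ℚ)) (hgt F i : ℚ) (hgt F i : ℚ) (dl F : ℚ) s

noncomputable def q3' (F : PAM) (i : Fin F.n) (s : ℝ) : ℝ :=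
  lin' 1 (-(hgt F i : ℚ)) (hgt F i : ℚ) (hgt F i : ℚ) (dl F : ℚ) s

/-- the lift -/
noncomputable def liftV (F : PAM) (δ : ℚ) (x : E3) : ℝ :=
  ∑ i, (hgt F i : ℝ) * bx (F.rule i).src δ x + ∑ j, 1 / 2 * bx (F.halt j) δ x

/-- the descent -/
noncomputable def lowV (F : PAM) (δ : ℚ) (x : E3) : ℝ :=
  ∑ i, (hgt F i : ℝ) * bx (F.rule i).tgt δ x

/-- the motion in the slabs -/
noncomputable def movV (F : PAM) (x : E3) : E3 :=
  ![∑ i, g1 (F.rule i) (x 0) * q3' F i (x 2), ∑ i, g2 (F.rule i) (x 1) * q3' F i (x 2),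
    -∑ i, (g1' (F.rule i) (x 0) + g2' (F.rule i) (x 1)) * q3 F i (x 2)]

/-- the velocity field of the system `F` -/
noncomputable def uU (F : PAM) (δ : ℚ) (t : ℝ) (x : E3) : E3 :=
  ![th 5 t * movV F x 0, th 5 t * movV F x 1,
    th 3 t * liftV F δ x + th 5 t * movV F x 2 - th 7 t * lowV F δ x]

/-! ### values of the cutoffs -/

/-- membership of a real point in a closed box -/
def Box.MemR (B : Box) (x y : ℝ) : Prop :=
  (B.a1 : ℝ) ≤ x ∧ x ≤ ((B.a1 + B.w1 : ℚ) : ℝ) ∧ (B.a2 : ℝ) ≤ y ∧ y ≤ ((B.a2 + B.w2 : ℚ) : ℝ)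

lemma Box.mem_real {B : Box} {P : ℚ × ℚ} (h : B.Mem P) : Box.MemR B P.1 P.2 := by
  obtain ⟨h1, h2, h3, h4⟩ := h
  exact ⟨by exact_mod_cast h1, by exact_mod_cast h2, by exact_mod_cast h3, by exact_mod_cast h4⟩

section vals

variable {B B' : Box} {δ : ℚ} {x : E3}

lemma good_bounds (hB : B.Good) (hδ' : δ ≤ 1 / 8) :
    ((0 : ℝ) ≤ (B.a1 : ℝ) - 2 * (δ : ℝ) ∧ ((B.a1 + B.w1 : ℚ) : ℝ) + 2 * (δ : ℝ) ≤ 1) ∧
    ((0 : ℝ) ≤ (B.a2 : ℝ) - 2 * (δ : ℝ) ∧ ((B.a2 + B.w2 : ℚ) : ℝ) + 2 * (δ : ℝ) ≤ 1) ∧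
    (B.a1 : ℝ) ≤ ((B.a1 + B.w1 : ℚ) : ℝ) ∧ (B.a2 : ℝ) ≤ ((B.a2 + B.w2 : ℚ) : ℝ) := by
  obtain ⟨⟨h1, h2, h3⟩, h4, h5, h6⟩ := hB
  have e1 : (0 : ℚ) ≤ B.a1 - 2 * δ := by linarith
  have e2 : B.a1 + B.w1 + 2 * δ ≤ 1 := by linarith
  have e3 : (0 : ℚ) ≤ B.a2 - 2 * δ := by linarith
  have e4 : B.a2 + B.w2 + 2 * δ ≤ 1 := by linarith
  refine ⟨⟨by exact_mod_cast e1, by exact_mod_cast e2⟩, ⟨by exact_mod_cast e3, by
    exact_mod_cast e4⟩, ?_, ?_⟩
  · exact_mod_cast (by linarith : B.a1 ≤ B.a1 + B.w1)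
  · exact_mod_cast (by linarith : B.a2 ≤ B.a2 + B.w2)

lemma bx_in (hB : B.Good) (hδ : 0 < δ) (hδ' : δ ≤ 1 / 8) (hx : Box.MemR B (x 0) (x 1)) :
    bx B δ x = 1 := by
  obtain ⟨⟨h1, h2⟩, ⟨h3, h4⟩, h5, h6⟩ := good_bounds hB hδ'
  have hδR : (0 : ℝ) < (δ : ℝ) := by exact_mod_cast hδ
  rw [bx, lin_in hδR h5 h1 h2 hx.1 hx.2.1, lin_in hδR h6 h3 h4 hx.2.2.1 hx.2.2.2]
  ring

lemma cast14 {q : ℚ} (h : 1 / 4 ≤ q) : (1 / 4 : ℝ) ≤ (q : ℝ) := by
  have := (Rat.cast_le (K := ℝ)).mpr h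
  push_cast at this
  linarith

lemma cast34 {q : ℚ} (h : q ≤ 3 / 4) : (q : ℝ) ≤ (3 / 4 : ℝ) := by
  have := (Rat.cast_le (K := ℝ)).mpr h
  push_cast at this
  linarith

lemma cast14' {q : ℚ} (h : q < 1 / 4) : (q : ℝ) < (1 / 4 : ℝ) := by
  have := (Rat.cast_lt (K := ℝ)).mpr h
  push_cast at this
  linarith

lemma mem_unit (hB : B.Good) (hx : Box.MemR B (x 0) (x 1)) :
    (x 0 ∈ Icc (1 / 4 : ℝ) (3 / 4)) ∧ (x 1 ∈ Icc (1 / 4 : ℝ) (3 / 4)) := by
  obtain ⟨⟨h1, h2, h3⟩, h4, h5, h6⟩ := hB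
  have e1 : (1 / 4 : ℝ) ≤ (B.a1 : ℝ) := cast14 h1
  have e3 : ((B.a1 + B.w1 : ℚ) : ℝ) ≤ 3 / 4 := cast34 h3
  have e4 : (1 / 4 : ℝ) ≤ (B.a2 : ℝ) := cast14 h4
  have e6 : ((B.a2 + B.w2 : ℚ) : ℝ) ≤ 3 / 4 := cast34 h6
  exact ⟨⟨e1.trans hx.1, hx.2.1.trans e3⟩, ⟨e4.trans hx.2.2.1, hx.2.2.2.trans e6⟩⟩

lemma bx_out (hB : B.Good) (hB' : B'.Good) (hδ : 0 < δ) (hδ' : δ ≤ 1 / 8)
    (hs : SepBy (2 * δ) B B') (hx : Box.MemR B (x 0) (x 1)) : bx B' δ x = 0 := by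
  obtain ⟨⟨h1, h2⟩, ⟨h3, h4⟩, h5, h6⟩ := good_bounds hB' hδ'
  obtain ⟨⟨m1, m2⟩, ⟨m3, m4⟩⟩ := mem_unit hB hx
  have hδR : (0 : ℝ) < (δ : ℝ) := by exact_mod_cast hδ
  rw [bx]
  rcases hs with (hs | hs) | (hs | hs)
  · have e : ((B.a1 + B.w1 : ℚ) : ℝ) + 2 * δ ≤ B'.a1 := by exact_mod_cast hs
    rw [lin_out hδR h5 h1 h2 (by linarith) (by linarith)
      (Or.inl (by have := hx.2.1; linarith)), zero_mul]
  · have e : ((B'.a1 + B'.w1 : ℚ) : ℝ) + 2 * δ ≤ B.a1 := by exact_mod_cast hs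
    rw [lin_out hδR h5 h1 h2 (by linarith) (by linarith)
      (Or.inr (by have := hx.1; linarith)), zero_mul]
  · have e : ((B.a2 + B.w2 : ℚ) : ℝ) + 2 * δ ≤ B'.a2 := by exact_mod_cast hs
    rw [lin_out hδR h6 h3 h4 (by linarith) (by linarith)
      (Or.inl (by have := hx.2.2.2; linarith)), mul_zero]
  · have e : ((B'.a2 + B'.w2 : ℚ) : ℝ) + 2 * δ ≤ B.a2 := by exact_mod_cast hs
    rw [lin_out hδR h6 h3 h4 (by linarith) (by linarith)
      (Or.inr (by have := hx.2.2.1; linarith)), mul_zero]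

lemma SepBy.symm {d : ℚ} (h : SepBy d B B') : SepBy d B' B := by
  rcases h with (h | h) | (h | h)
  · exact Or.inl (Or.inr h)
  · exact Or.inl (Or.inl h)
  · exact Or.inr (Or.inr h)
  · exact Or.inr (Or.inl h)

end vals

section slab

variable (F : PAM) (i : Fin F.n)

lemma hgt_pos : 0 < hgt F i := by
  unfold hgt
  positivity

lemma hgt_lt : hgt F i < 1 / 4 := by
  unfold hgt
  rw [div_lt_div_iff₀ (by positivity) (by norm_num)]
  have : ((i : ℕ) : ℚ) + 1 ≤ F.n := by exact_mod_cast i.2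
  linarith

lemma dl_pos : 0 < dl F := by
  unfold dl
  positivity

lemma hgt_sub_dl : 0 ≤ hgt F i - 2 * dl F := by
  unfold hgt dl
  have h1 : (0 : ℚ) ≤ ((i : ℕ) : ℚ) := by positivity
  have e : ((i : ℕ) + 1 : ℚ) / (4 * (F.n + 1)) - 2 * (1 / (8 * (F.n + 1))) =
      ((i : ℕ) : ℚ) / (4 * (F.n + 1)) := by field_simp; ring
  rw [e]
  positivity

lemma hgt_add_dl : hgt F i + 2 * dl F ≤ 1 := by
  have h1 := hgt_lt F i
  have h2 : dl F ≤ 1 / 8 := by
    unfold dl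
    rw [div_le_div_iff₀ (by positivity) (by norm_num)]
    have : (0 : ℚ) ≤ F.n := by positivity
    linarith
  linarith

lemma hgt_sep {j : Fin F.n} (hij : i ≠ j) :
    hgt F i ≤ hgt F j - 2 * dl F ∨ hgt F j + 2 * dl F ≤ hgt F i := by
  have h0 : (0 : ℚ) < 4 * (F.n + 1) := by positivity
  have e1 : 2 * dl F = 1 / (4 * (F.n + 1)) := by
    unfold dl
    field_simp
    ring
  rw [e1]
  unfold hgt
  rcases lt_or_gt_of_ne hij with h | h
  · left
    have : ((i : ℕ) : ℚ) + 1 ≤ (j : ℕ) := by exact_mod_cast h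
    rw [← sub_div, div_le_div_iff_of_pos_right h0]
    linarith
  · right
    have : ((j : ℕ) : ℚ) + 1 ≤ (i : ℕ) := by exact_mod_cast h
    rw [← add_div, div_le_div_iff_of_pos_right h0]
    linarith

lemma slab_bounds : (0 : ℝ) < (dl F : ℚ) ∧ (0 : ℝ) ≤ ((hgt F i : ℚ) : ℝ) - 2 * ((dl F : ℚ) : ℝ) ∧
    ((hgt F i : ℚ) : ℝ) + 2 * ((dl F : ℚ) : ℝ) ≤ 1 :=
  ⟨by exact_mod_cast dl_pos F, by exact_mod_cast hgt_sub_dl F i, by exact_mod_cast hgt_add_dl F i⟩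

lemma q3_self : q3 F i (hgt F i : ℚ) = 0 := by
  obtain ⟨h1, h2, h3⟩ := slab_bounds F i
  rw [q3, lin_in h1 le_rfl h2 h3 le_rfl le_rfl]
  ring

lemma q3'_self : q3' F i (hgt F i : ℚ) = 1 := by
  obtain ⟨h1, h2, h3⟩ := slab_bounds F i
  rw [q3', lin'_in h1 le_rfl h2 h3 le_rfl le_rfl]

lemma q3_other {j : Fin F.n} (hij : i ≠ j) : q3 F j (hgt F i : ℚ) = 0 := by
  obtain ⟨h1, h2, h3⟩ := slab_bounds F j
  rw [q3, lin_out h1 le_rfl h2 h3 (by exact_mod_cast (hgt_pos F i).le)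
    (by exact_mod_cast (hgt_lt F i).le.trans (by norm_num))]
  exact (hgt_sep F i hij).imp (fun h => by exact_mod_cast h) (fun h => by exact_mod_cast h)

lemma q3'_other {j : Fin F.n} (hij : i ≠ j) : q3' F j (hgt F i : ℚ) = 0 := by
  obtain ⟨h1, h2, h3⟩ := slab_bounds F j
  rw [q3', lin'_out h1 le_rfl h2 h3 (by exact_mod_cast (hgt_pos F i).le)
    (by exact_mod_cast (hgt_lt F i).le.trans (by norm_num))]
  exact (hgt_sep F i hij).imp (fun h => by exact_mod_cast h) (fun h => by exact_mod_cast h)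

end slab

/-! ### the three parts of the field on the path -/

section field

variable {F : PAM} {δ : ℚ} (hM : Margin F δ)

include hM

lemma liftV_src (i : Fin F.n) {x : E3} (hx : Box.MemR (F.rule i).src (x 0) (x 1)) :
    liftV F δ x = hgt F i := by
  unfold liftV
  rw [Finset.sum_eq_single i, bx_in (F.rule_good i).1 hM.pos hM.le hx, mul_one,
    Finset.sum_eq_zero, add_zero]
  · intro j _
    rw [bx_out (F.rule_good i).1 (F.halt_good j) hM.pos hM.le (hM.halt i j) hx, mul_zero]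
  · intro j _ hj
    rw [bx_out (F.rule_good i).1 (F.rule_good j).1 hM.pos hM.le (hM.src i j (Ne.symm hj)) hx,
      mul_zero]
  · intro h; exact absurd (Finset.mem_univ i) h

lemma lowV_tgt (i : Fin F.n) {x : E3} (hx : Box.MemR (F.rule i).tgt (x 0) (x 1)) :
    lowV F δ x = hgt F i := by
  unfold lowV
  rw [Finset.sum_eq_single i, bx_in (F.rule_good i).2.1 hM.pos hM.le hx, mul_one]
  · intro j _ hj
    rw [bx_out (F.rule_good i).2.1 (F.rule_good j).2.1 hM.pos hM.le (hM.tgt i j (Ne.symm hj)) hx,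
      mul_zero]
  · intro h; exact absurd (Finset.mem_univ i) h

omit hM in
lemma movV_slab (i : Fin F.n) {x : E3} (h0 : x 0 ∈ Icc (1 / 4 : ℝ) (3 / 4))
    (h1 : x 1 ∈ Icc (1 / 4 : ℝ) (3 / 4)) (h2 : x 2 = (hgt F i : ℚ)) :
    movV F x 0 = Real.log (F.rule i).r1 * x 0 + beta (F.rule i).src.a1 (F.rule i).c1 (F.rule i).r1 ∧
    movV F x 1 = Real.log (F.rule i).r2 * x 1 + beta (F.rule i).src.a2 (F.rule i).c2 (F.rule i).r2 ∧
    movV F x 2 = 0 := by
  have e0 : movV F x 0 = ∑ j, g1 (F.rule j) (x 0) * q3' F j (x 2) := rfl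
  have e1 : movV F x 1 = ∑ j, g2 (F.rule j) (x 1) * q3' F j (x 2) := rfl
  have e2 : movV F x 2 = -∑ j, (g1' (F.rule j) (x 0) + g2' (F.rule j) (x 1)) * q3 F j (x 2) := rfl
  have hn : (0 : ℝ) < 1 / 8 := by norm_num
  rw [e0, e1, e2, h2]
  refine ⟨?_, ?_, ?_⟩
  · rw [Finset.sum_eq_single i, q3'_self, mul_one, g1, lin_in hn (by norm_num) (by norm_num)
      (by norm_num) h0.1 h0.2]
    · intro j _ hj
      rw [q3'_other F i (Ne.symm hj), mul_zero]
    · intro h; exact absurd (Finset.mem_univ i) h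
  · rw [Finset.sum_eq_single i, q3'_self, mul_one, g2, lin_in hn (by norm_num) (by norm_num)
      (by norm_num) h1.1 h1.2]
    · intro j _ hj
      rw [q3'_other F i (Ne.symm hj), mul_zero]
    · intro h; exact absurd (Finset.mem_univ i) h
  · rw [Finset.sum_eq_zero, neg_zero]
    intro j _
    by_cases hj : i = j
    · subst hj; rw [q3_self, mul_zero]
    · rw [q3_other F i hj, mul_zero]

end field

/-! ### the exact path of one step -/

/-- the path of the point `(x, y, 0)`, `(x, y)` in the source box of the rule `i`, in one period -/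
noncomputable def pth (F : PAM) (i : Fin F.n) (x y τ : ℝ) : E3 :=
  ![aff (F.rule i).src.a1 (F.rule i).c1 (F.rule i).r1 x (Th 5 τ),
    aff (F.rule i).src.a2 (F.rule i).c2 (F.rule i).r2 y (Th 5 τ),
    (hgt F i : ℚ) * (Th 3 τ - Th 7 τ)]

section path

variable {F : PAM} {δ : ℚ} (i : Fin F.n) {x y : ℝ}

/-- the real affine map of a rule -/
noncomputable def mapR (R : Rule) (x y : ℝ) : ℝ × ℝ :=
  (R.c1 + R.r1 * (x - R.src.a1), R.c2 + R.r2 * (y - R.src.a2))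

lemma mapR_mem {R : Rule} (hR : R.Good) (hx : Box.MemR R.src x y) :
    Box.MemR R.tgt (mapR R x y).1 (mapR R x y).2 := by
  obtain ⟨-, -, h1, h2, -, -⟩ := hR
  obtain ⟨a, b, c, d⟩ := hx
  have h1' : (0 : ℝ) < R.r1 := by exact_mod_cast h1
  have h2' : (0 : ℝ) < R.r2 := by exact_mod_cast h2
  push_cast at b d
  refine ⟨?_, ?_, ?_, ?_⟩
  · show (R.c1 : ℝ) ≤ R.c1 + R.r1 * (x - R.src.a1)
    nlinarith
  · show R.c1 + R.r1 * (x - R.src.a1) ≤ ((R.c1 + R.r1 * R.src.w1 : ℚ) : ℝ)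
    push_cast; nlinarith
  · show (R.c2 : ℝ) ≤ R.c2 + R.r2 * (y - R.src.a2)
    nlinarith
  · show R.c2 + R.r2 * (y - R.src.a2) ≤ ((R.c2 + R.r2 * R.src.w2 : ℚ) : ℝ)
    push_cast; nlinarith

lemma pth_zero : pth F i x y 0 = ![x, y, 0] := by
  unfold pth
  rw [Th_zero (by norm_num), Th_zero (by norm_num), Th_zero (by norm_num), aff_zero, aff_zero]
  simp

lemma pth_one : pth F i x y 1 = ![(mapR (F.rule i) x y).1, (mapR (F.rule i) x y).2, 0] := by
  obtain ⟨-, -, h1, h2, -, -⟩ := F.rule_good i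
  have h1' : (0 : ℝ) < (F.rule i).r1 := by exact_mod_cast h1
  have h2' : (0 : ℝ) < (F.rule i).r2 := by exact_mod_cast h2
  unfold pth
  rw [Th_one (by norm_num), Th_one (by norm_num), Th_one (by norm_num), aff_one h1', aff_one h2']
  simp [mapR]

/-- the third coordinate stays in `[0, 1/4)` -/
lemma pth_height (τ : ℝ) : 0 ≤ pth F i x y τ 2 ∧ pth F i x y τ 2 < 1 / 4 := by
  have e : pth F i x y τ 2 = (hgt F i : ℚ) * (Th 3 τ - Th 7 τ) := rfl
  have h1 : (0 : ℝ) < ((hgt F i : ℚ) : ℝ) := by exact_mod_cast hgt_pos F i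
  have h2 : ((hgt F i : ℚ) : ℝ) < 1 / 4 := cast14' (hgt_lt F i)
  have h3 : Th 7 τ ≤ Th 3 τ := by
    unfold Th
    exact div_le_div_of_nonneg_right (sig_mono (by linarith)) kappa_pos.le
  have h4 := Th_le_one 3 τ
  have h5 := Th_nonneg 7 τ
  rw [e]
  constructor
  · exact mul_nonneg h1.le (by linarith)
  · nlinarith

lemma pth_mem (hx : Box.MemR (F.rule i).src x y) (τ : ℝ) :
    pth F i x y τ 0 ∈ Icc (1 / 4 : ℝ) (3 / 4) ∧ pth F i x y τ 1 ∈ Icc (1 / 4 : ℝ) (3 / 4) := by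
  have hR := F.rule_good i
  have h1' : (0 : ℝ) < (F.rule i).r1 := by exact_mod_cast hR.2.2.1
  have h2' : (0 : ℝ) < (F.rule i).r2 := by exact_mod_cast hR.2.2.2.1
  have hs := mem_unit (x := ![x, y, 0]) hR.1 hx
  have ht := mem_unit (x := ![(mapR (F.rule i) x y).1, (mapR (F.rule i) x y).2, 0]) hR.2.1
    (mapR_mem hR hx)
  constructor
  · exact aff_mem h1' (Th_nonneg _ _) (Th_le_one _ _) hs.1 ht.1
  · exact aff_mem h2' (Th_nonneg _ _) (Th_le_one _ _) hs.2 ht.2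

/-- the path is a solution -/
lemma pth_ode (hM : Margin F δ) (hx : Box.MemR (F.rule i).src x y) {τ : ℝ} (h0 : 0 ≤ τ)
    (h1 : τ ≤ 1) : HasDerivAt (pth F i x y) (uU F δ τ (pth F i x y τ)) τ := by
  have t3 := th_eq (b := 3) (by norm_num) (by norm_num) h0 h1
  have t5 := th_eq (b := 5) (by norm_num) (by norm_num) h0 h1
  have t7 := th_eq (b := 7) (by norm_num) (by norm_num) h0 h1
  have d3 := hasDerivAt_Th 3 τ
  have d5 := hasDerivAt_Th 5 τ
  have d7 := hasDerivAt_Th 7 τ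
  rw [← t3] at d3
  rw [← t5] at d5
  rw [← t7] at d7
  set X := pth F i x y τ with hX
  have hmem := pth_mem i hx τ
  rw [← hX] at hmem
  -- the move part
  have hmov : th 5 τ * movV F X 0 = (Real.log (F.rule i).r1 * X 0 +
        beta (F.rule i).src.a1 (F.rule i).c1 (F.rule i).r1) * th 5 τ ∧
      th 5 τ * movV F X 1 = (Real.log (F.rule i).r2 * X 1 +
        beta (F.rule i).src.a2 (F.rule i).c2 (F.rule i).r2) * th 5 τ ∧
      th 5 τ * movV F X 2 = 0 := by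
    by_cases h : 8 * τ ≤ 4 ∨ 6 ≤ 8 * τ
    · have : th 5 τ = 0 := by
        rw [t5, show rho (8 * τ - 5) = rb 5 τ from rfl, rb_zero (by
          rcases h with h | h
          · left; linarith
          · right; linarith)]
        simp
      rw [this]; simp
    · push Not at h
      have h2 : X 2 = (hgt F i : ℚ) := by
        rw [hX]
        show (hgt F i : ℚ) * (Th 3 τ - Th 7 τ) = _
        rw [Th_one (by linarith), Th_zero (by linarith)]
        ring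
      obtain ⟨e1, e2, e3⟩ := movV_slab i hmem.1 hmem.2 h2
      rw [e1, e2, e3]
      refine ⟨by ring, by ring, by ring⟩
  -- the lift part
  have hlift : th 3 τ * liftV F δ X = th 3 τ * (hgt F i : ℚ) := by
    by_cases h : 8 * τ < 4
    · have e : Th 5 τ = 0 := Th_zero (by linarith)
      have m : Box.MemR (F.rule i).src (X 0) (X 1) := by
        have e0 : X 0 = x := by
          rw [hX]; show aff _ _ _ x (Th 5 τ) = x
          rw [e, aff_zero]
        have e1 : X 1 = y := by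
          rw [hX]; show aff _ _ _ y (Th 5 τ) = y
          rw [e, aff_zero]
        rw [e0, e1]; exact hx
      rw [liftV_src hM i m]
    · have : th 3 τ = 0 := by
        rw [t3, show rho (8 * τ - 3) = rb 3 τ from rfl, rb_zero (Or.inr (by linarith))]
        simp
      rw [this]; simp
  have hlow : th 7 τ * lowV F δ X = th 7 τ * (hgt F i : ℚ) := by
    by_cases h : 6 < 8 * τ
    · have e : Th 5 τ = 1 := Th_one (by linarith)
      have hR := F.rule_good i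
      have h1' : (0 : ℝ) < (F.rule i).r1 := by exact_mod_cast hR.2.2.1
      have h2' : (0 : ℝ) < (F.rule i).r2 := by exact_mod_cast hR.2.2.2.1
      have m : Box.MemR (F.rule i).tgt (X 0) (X 1) := by
        have e0 : X 0 = (mapR (F.rule i) x y).1 := by
          rw [hX]; show aff _ _ _ x (Th 5 τ) = _
          rw [e, aff_one h1']; rfl
        have e1 : X 1 = (mapR (F.rule i) x y).2 := by
          rw [hX]; show aff _ _ _ y (Th 5 τ) = _
          rw [e, aff_one h2']; rfl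
        rw [e0, e1]; exact mapR_mem hR hx
      rw [lowV_tgt hM i m]
    · have : th 7 τ = 0 := by
        rw [t7, show rho (8 * τ - 7) = rb 7 τ from rfl, rb_zero (Or.inl (by linarith))]
        simp
      rw [this]; simp
  rw [hasDerivAt_pi]
  intro j
  fin_cases j
  · show HasDerivAt (fun τ => aff _ _ _ x (Th 5 τ)) (th 5 τ * movV F X 0) τ
    rw [hmov.1]
    exact (hasDerivAt_aff _ _ _ x (Th 5 τ)).comp τ d5
  · show HasDerivAt (fun τ => aff _ _ _ y (Th 5 τ)) (th 5 τ * movV F X 1) τ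
    rw [hmov.2.1]
    exact (hasDerivAt_aff _ _ _ y (Th 5 τ)).comp τ d5
  · show HasDerivAt (fun τ => (hgt F i : ℚ) * (Th 3 τ - Th 7 τ))
      (th 3 τ * liftV F δ X + th 5 τ * movV F X 2 - th 7 τ * lowV F δ X) τ
    rw [hmov.2.2, hlift, hlow]
    have e : th 3 τ * ((hgt F i : ℚ) : ℝ) + 0 - th 7 τ * ((hgt F i : ℚ) : ℝ) =
        ((hgt F i : ℚ) : ℝ) * (th 3 τ - th 7 τ) := by ring
    rw [e]
    exact (d3.sub d7).const_mul ((hgt F i : ℚ) : ℝ)

end path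

end Vale.Agent.P113
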