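import Vale.Agent.P113.H468.Geo
import Vale.Agent.P113.PDE.Final
import Vale.Agent.P113.Adm

/-!
# P113 : properties of the velocity field `uU`: smoothness, periodicity, divergence; the pieces of
its trajectories over one period
-/

open MeasureTheory Set Filter Topology
open scoped ContDiff

namespace Vale.Agent.P113

open H760 PDE

variable {F : PAM} {δ : ℚ}

lemma Margin.posR (hM : Margin F δ) : (0 : ℝ) < (δ : ℝ) := by exact_mod_cast hM.pos

lemma Good.le1 {B : Box} (hB : B.Good) : (B.a1 : ℝ) ≤ ((B.a1 + B.w1 : ℚ) : ℝ) := by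
  obtain ⟨⟨h1, h2, h3⟩, h4, h5, h6⟩ := hB
  exact_mod_cast (by linarith : B.a1 ≤ B.a1 + B.w1)

lemma Good.le2 {B : Box} (hB : B.Good) : (B.a2 : ℝ) ≤ ((B.a2 + B.w2 : ℚ) : ℝ) := by
  obtain ⟨⟨h1, h2, h3⟩, h4, h5, h6⟩ := hB
  exact_mod_cast (by linarith : B.a2 ≤ B.a2 + B.w2)

/-! ### admissibility and smoothness -/

lemma padm_cb (i : Fin 3) (k : ℕ) {A B δ : ℚ} (hδ : 0 < δ) (hAB : A ≤ B) :
    PAdm fun _ _ x => per (cb k (A : ℝ) (B : ℝ) (δ : ℝ)) (x i) := by
  have hl : (0 : ℚ) < (B - A) / δ + 2 := by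
    have : 0 ≤ (B - A) / δ := div_nonneg (by linarith) hδ.le
    linarith
  have ha : (1 : ℚ) / δ ≠ 0 := (one_div_pos.mpr hδ).ne'
  have hok : BumpOK (Sum.inr (k, code ((B - A) / δ + 2), code (1 / δ), code (A / δ - 1))) := by
    show val (code (1 / δ)) ≠ 0 ∧ 0 < val (code ((B - A) / δ + 2))
    rw [val_code, val_code]
    exact ⟨by exact_mod_cast ha, by exact_mod_cast hl⟩
  have e : bump (Sum.inr (k, code ((B - A) / δ + 2), code (1 / δ), code (A / δ - 1))) =
      cb k (A : ℝ) (B : ℝ) (δ : ℝ) := by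
    funext s
    show s ^ k * pil (val (code ((B - A) / δ + 2)))
      (val (code (1 / δ)) * s - val (code (A / δ - 1))) = _
    rw [val_code, val_code, val_code, cb, pb]
    push_cast
    rfl
  refine (PAdm.space i hok).congr fun ν t x => ?_
  rw [e]

lemma padm_lin (i : Fin 3) {α β : ℝ} (hα : PAdm fun _ _ _ => α) (hβ : PAdm fun _ _ _ => β)
    {A B δ : ℚ} (hδ : 0 < δ) (hAB : A ≤ B) :
    PAdm fun _ _ x => lin α β (A : ℝ) (B : ℝ) (δ : ℝ) (x i) := by
  refine (((hα.mul (padm_cb i 1 hδ hAB)).add (hβ.mul (padm_cb i 0 hδ hAB))).mul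
    PAdm.kappa_inv).congr fun ν t x => ?_
  rw [lin, div_eq_mul_inv]

lemma padm_lin' (i : Fin 3) {α β : ℝ} (hα : PAdm fun _ _ _ => α) (hβ : PAdm fun _ _ _ => β)
    {A B δ : ℚ} (hδ : 0 < δ) (hAB : A ≤ B) :
    PAdm fun _ _ x => lin' α β (A : ℝ) (B : ℝ) (δ : ℝ) (x i) := by
  refine ((padm_lin i hα hβ hδ hAB).pd i).congr fun ν t x => ?_
  have hδ' : (0 : ℝ) < (δ : ℝ) := by exact_mod_cast hδ
  have hAB' : (A : ℝ) ≤ (B : ℝ) := by exact_mod_cast hAB
  rw [pd_comp_apply (hasDerivAt_lin hδ' hAB' (x i)) i, if_pos rfl]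

lemma padm_th (b : ℚ) : PAdm fun _ t _ => th (b : ℝ) t := by
  have hok : BumpOK (Sum.inl (0, 0, code 8, code b)) := by
    show val (code 8) ≠ 0
    rw [val_code]
    norm_num
  have e : bump (Sum.inl (0, 0, code 8, code b)) = rb (b : ℝ) := by
    funext s
    show s ^ 0 * iteratedDeriv 0 rho (val (code 8) * s - val (code b)) = _
    rw [val_code, val_code, iteratedDeriv_zero, rb]
    push_cast
    ring_nf
  refine (((PAdm.time hok).const_mul 8).mul PAdm.kappa_inv).congr fun ν t x => ?_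
  rw [e, th, div_eq_mul_inv]
  push_cast
  ring

lemma padm_bx {B : Box} (hB : B.Good) (hδ : 0 < δ) : PAdm fun _ _ x => bx B δ x := by
  obtain ⟨⟨h1, h2, h3⟩, h4, h5, h6⟩ := hB
  have hc : ∀ q : ℚ, PAdm fun _ _ _ => (q : ℝ) := PAdm.const
  have h0 : PAdm fun _ _ _ => (0 : ℝ) := PAdm.zero
  exact (padm_lin 0 h0 PAdm.one hδ (by linarith)).mul (padm_lin 1 h0 PAdm.one hδ (by linarith))

lemma padm_beta {a c r : ℚ} (hr : 0 < r) : PAdm fun _ _ _ => beta (a : ℝ) (c : ℝ) (r : ℝ) := by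
  by_cases h : r = 1
  · subst h
    refine (PAdm.const (c - a)).congr fun ν t x => ?_
    unfold beta
    rw [if_pos (by norm_num)]
    push_cast
    ring
  · refine ((PAdm.log hr).mul (PAdm.const (-((c - r * a) / (1 - r))))).congr fun ν t x => ?_
    unfold beta
    rw [if_neg (by exact_mod_cast h)]
    push_cast
    ring

section rules

variable (R : Rule) (hR : R.Good)

include hR

lemma padm_g1 : PAdm fun _ _ x => g1 R (x 0) := by
  have := padm_lin 0 (PAdm.log hR.2.2.1) (padm_beta (a := R.src.a1) (c := R.c1) hR.2.2.1)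
    (A := 1 / 4) (B := 3 / 4) (δ := 1 / 8) (by norm_num) (by norm_num)
  refine this.congr fun ν t x => ?_
  rw [g1]; push_cast; rfl

lemma padm_g1' : PAdm fun _ _ x => g1' R (x 0) := by
  have := padm_lin' 0 (PAdm.log hR.2.2.1) (padm_beta (a := R.src.a1) (c := R.c1) hR.2.2.1)
    (A := 1 / 4) (B := 3 / 4) (δ := 1 / 8) (by norm_num) (by norm_num)
  refine this.congr fun ν t x => ?_
  rw [g1']; push_cast; rfl

lemma padm_g2 : PAdm fun _ _ x => g2 R (x 1) := by
  have := padm_lin 1 (PAdm.log hR.2.2.2.1) (padm_beta (a := R.src.a2) (c := R.c2) hR.2.2.2.1)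
    (A := 1 / 4) (B := 3 / 4) (δ := 1 / 8) (by norm_num) (by norm_num)
  refine this.congr fun ν t x => ?_
  rw [g2]; push_cast; rfl

lemma padm_g2' : PAdm fun _ _ x => g2' R (x 1) := by
  have := padm_lin' 1 (PAdm.log hR.2.2.2.1) (padm_beta (a := R.src.a2) (c := R.c2) hR.2.2.2.1)
    (A := 1 / 4) (B := 3 / 4) (δ := 1 / 8) (by norm_num) (by norm_num)
  refine this.congr fun ν t x => ?_
  rw [g2']; push_cast; rfl

end rules

lemma padm_q3 (F : PAM) (i : Fin F.n) : PAdm fun _ _ x => q3 F i (x 2) := by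
  have := padm_lin 2 PAdm.one (PAdm.const (-(hgt F i))) (A := hgt F i) (B := hgt F i)
    (dl_pos F) le_rfl
  refine this.congr fun ν t x => ?_
  rw [q3]; push_cast; rfl

lemma padm_q3' (F : PAM) (i : Fin F.n) : PAdm fun _ _ x => q3' F i (x 2) := by
  have := padm_lin' 2 PAdm.one (PAdm.const (-(hgt F i))) (A := hgt F i) (B := hgt F i)
    (dl_pos F) le_rfl
  refine this.congr fun ν t x => ?_
  rw [q3']; push_cast; rfl

lemma padm_liftV (hM : Margin F δ) : PAdm fun _ _ x => liftV F δ x := by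
  refine ((PAdm.sum Finset.univ fun i _ => (padm_bx (F.rule_good i).1 hM.pos).const_mul
    (hgt F i)).add (PAdm.sum Finset.univ fun j _ => (padm_bx (F.halt_good j) hM.pos).const_mul
    (1 / 2))).congr fun ν t x => ?_
  rw [liftV]; push_cast; rfl

lemma padm_lowV (hM : Margin F δ) : PAdm fun _ _ x => lowV F δ x :=
  PAdm.sum Finset.univ fun i _ => (padm_bx (F.rule_good i).2.1 hM.pos).const_mul (hgt F i)

lemma padm_movV (F : PAM) (j : Fin 3) : PAdm fun _ _ x => movV F x j := by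
  fin_cases j
  · exact PAdm.sum Finset.univ fun i _ => (padm_g1 _ (F.rule_good i)).mul (padm_q3' F i)
  · exact PAdm.sum Finset.univ fun i _ => (padm_g2 _ (F.rule_good i)).mul (padm_q3' F i)
  · exact (PAdm.sum Finset.univ fun i _ => ((padm_g1' _ (F.rule_good i)).add
      (padm_g2' _ (F.rule_good i))).mul (padm_q3 F i)).neg

theorem padm_uU (hM : Margin F δ) (j : Fin 3) : PAdm fun _ t x => uU F δ t x j := by
  have h3 := padm_th 3
  have h5 := padm_th 5
  have h7 := padm_th 7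
  norm_num at h3 h5 h7
  fin_cases j
  · exact h5.mul (padm_movV F 0)
  · exact h5.mul (padm_movV F 1)
  · exact ((h3.mul (padm_liftV hM)).add (h5.mul (padm_movV F 2))).sub (h7.mul (padm_lowV hM))

lemma hasDerivAt_g1 (R : Rule) (s : ℝ) : HasDerivAt (g1 R) (g1' R s) s :=
  hasDerivAt_lin (by norm_num) (by norm_num) s
lemma hasDerivAt_g2 (R : Rule) (s : ℝ) : HasDerivAt (g2 R) (g2' R s) s :=
  hasDerivAt_lin (by norm_num) (by norm_num) s
lemma hasDerivAt_q3 (F : PAM) (i : Fin F.n) (s : ℝ) : HasDerivAt (q3 F i) (q3' F i s) s :=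
  hasDerivAt_lin (by exact_mod_cast dl_pos F) le_rfl s

/-! ### periodicity -/

lemma bx_periodic (B : Box) (x : E3) (k : Fin 3 → ℤ) :
    bx B δ (fun i => x i + k i) = bx B δ x := by
  simp only [bx, lin_add_int]

lemma liftV_periodic (x : E3) (k : Fin 3 → ℤ) :
    liftV F δ (fun i => x i + k i) = liftV F δ x := by
  simp only [liftV, bx_periodic]

lemma lowV_periodic (x : E3) (k : Fin 3 → ℤ) :
    lowV F δ (fun i => x i + k i) = lowV F δ x := by
  simp only [lowV, bx_periodic]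

lemma movV_periodic (x : E3) (k : Fin 3 → ℤ) :
    movV F (fun i => x i + k i) = movV F x := by
  simp only [movV, g1, g1', g2, g2', q3, q3', lin_add_int, lin'_add_int]

theorem uU_periodic (F : PAM) (δ : ℚ) (t : ℝ) (x : Fin 3 → ℝ) (k : Fin 3 → ℤ) :
    uU F δ t (fun i => x i + k i) = uU F δ t x := by
  simp only [uU, liftV_periodic, lowV_periodic, movV_periodic]

theorem uU_add_int (F : PAM) (δ : ℚ) (t : ℝ) (k : ℤ) (x : Fin 3 → ℝ) :
    uU F δ (t + k) x = uU F δ t x := by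
  simp only [uU, th_add_int]

theorem uU_zero (F : PAM) (δ : ℚ) {t : ℝ} (h0 : 0 ≤ t) (h1 : t ≤ 1 / 4) (x : Fin 3 → ℝ) :
    uU F δ t x = 0 := by
  have t3 : th 3 t = 0 := by
    rw [th_eq (by norm_num) (by norm_num) h0 (by linarith), show rho (8 * t - 3) = rb 3 t from rfl,
      rb_zero (Or.inl (by linarith))]
    simp
  have t5 : th 5 t = 0 := by
    rw [th_eq (by norm_num) (by norm_num) h0 (by linarith), show rho (8 * t - 5) = rb 5 t from rfl,
      rb_zero (Or.inl (by linarith))]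
    simp
  have t7 : th 7 t = 0 := by
    rw [th_eq (by norm_num) (by norm_num) h0 (by linarith), show rho (8 * t - 7) = rb 7 t from rfl,
      rb_zero (Or.inl (by linarith))]
    simp
  funext i
  fin_cases i
  · show th 5 t * _ = 0
    rw [t5, zero_mul]
  · show th 5 t * _ = 0
    rw [t5, zero_mul]
  · show th 3 t * _ + th 5 t * _ - th 7 t * _ = 0
    rw [t3, t5, t7]
    ring

/-! ### divergence -/

lemma hasPartial_self {h : ℝ → ℝ} {h' : ℝ} {x : E3} (j : Fin 3) (hh : HasDerivAt h h' (x j)) :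
    HasPartial (fun y => h (y j)) j h' x := by
  unfold HasPartial
  simpa using hh

lemma hasPartial_other (h : ℝ → ℝ) (x : E3) {i j : Fin 3} (hij : i ≠ j) :
    HasPartial (fun y => h (y i)) j 0 x := by
  unfold HasPartial
  have : (fun s : ℝ => h (Function.update x j s i)) = fun _ => h (x i) := by
    funext s
    rw [Function.update_of_ne hij]
  rw [this]
  exact hasDerivAt_const _ _

lemma hp_eq {g : E3 → ℝ} {j : Fin 3} {a b : ℝ} {x : E3} (h : HasPartial g j a x) (e : a = b) :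
    HasPartial g j b x := e ▸ h

lemma pd_eq_of_hasPartial {g : (Fin 3 → ℝ) → ℝ} {x : Fin 3 → ℝ} {j : Fin 3} {g' : ℝ}
    (hg : DifferentiableAt ℝ g x) (h : HasPartial g j g' x) : pd j g x = g' :=
  (hasPartial_pd hg j).unique h

theorem uU_div (hM : Margin F δ) (t : ℝ) (x : Fin 3 → ℝ) :
    ∑ j, pd j (fun y => uU F δ t y j) x = 0 := by
  have hs : ∀ j, DifferentiableAt ℝ (fun y => uU F δ t y j) x := fun j =>
    differentiable_space (g := fun t x => uU F δ t x j) ((padm_uU hM j).contDiff 0) t x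
  have e0 : HasPartial (fun y => uU F δ t y 0) 0
      (th 5 t * ∑ i, g1' (F.rule i) (x 0) * q3' F i (x 2)) x := by
    show HasPartial (fun y : E3 => th 5 t * ∑ i, g1 (F.rule i) (y 0) * q3' F i (y 2)) 0 _ x
    refine HasPartial.const_mul _ (HasPartial.sum fun i _ => ?_)
    have := (hasPartial_self 0 (hasDerivAt_g1 (F.rule i) (x 0))).mul
      (hasPartial_other (q3' F i) x (i := 2) (j := 0) (by decide))
    simpa using this
  have e1 : HasPartial (fun y => uU F δ t y 1) 1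
      (th 5 t * ∑ i, g2' (F.rule i) (x 1) * q3' F i (x 2)) x := by
    show HasPartial (fun y : E3 => th 5 t * ∑ i, g2 (F.rule i) (y 1) * q3' F i (y 2)) 1 _ x
    refine HasPartial.const_mul _ (HasPartial.sum fun i _ => ?_)
    have := (hasPartial_self 1 (hasDerivAt_g2 (F.rule i) (x 1))).mul
      (hasPartial_other (q3' F i) x (i := 2) (j := 1) (by decide))
    simpa using this
  have hb : ∀ B : Box, HasPartial (bx B δ) 2 0 x := by
    intro B
    have := (hasPartial_other (lin 0 1 B.a1 ((B.a1 + B.w1 : ℚ) : ℝ) δ) x (i := 0) (j := 2)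
      (by decide)).mul (hasPartial_other (lin 0 1 B.a2 ((B.a2 + B.w2 : ℚ) : ℝ) δ) x (i := 1)
      (j := 2) (by decide))
    exact hp_eq (g := bx B δ) this (by ring)
  have e2 : HasPartial (fun y => uU F δ t y 2) 2
      (th 5 t * -∑ i, (g1' (F.rule i) (x 0) + g2' (F.rule i) (x 1)) * q3' F i (x 2)) x := by
    have l1 : HasPartial (liftV F δ) 2 0 x := by
      have h1 := HasPartial.sum (s := Finset.univ) fun i _ =>
        HasPartial.const_mul ((hgt F i : ℚ) : ℝ) (hb (F.rule i).src)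
      have h2 := HasPartial.sum (s := Finset.univ) fun j _ =>
        HasPartial.const_mul (1 / 2 : ℝ) (hb (F.halt j))
      exact hp_eq (g := liftV F δ) (h1.add h2) (by simp)
    have l2 : HasPartial (lowV F δ) 2 0 x := by
      have h1 := HasPartial.sum (s := Finset.univ) fun i _ =>
        HasPartial.const_mul ((hgt F i : ℚ) : ℝ) (hb (F.rule i).tgt)
      exact hp_eq (g := lowV F δ) h1 (by simp)
    have l3 : HasPartial (fun y => movV F y 2) 2
        (-∑ i, (g1' (F.rule i) (x 0) + g2' (F.rule i) (x 1)) * q3' F i (x 2)) x := by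
      show HasPartial (fun y : E3 => -∑ j, (g1' (F.rule j) (y 0) + g2' (F.rule j) (y 1)) *
        q3 F j (y 2)) 2 _ x
      refine HasPartial.neg (HasPartial.sum fun i _ => ?_)
      have h1 := (hasPartial_other (g1' (F.rule i)) x (i := 0) (j := 2) (by decide)).add
        (hasPartial_other (g2' (F.rule i)) x (i := 1) (j := 2) (by decide))
      have h2 := h1.mul (hasPartial_self 2 (hasDerivAt_q3 F i (x 2)))
      simpa using h2
    have := ((l1.const_mul (th 3 t)).add (l3.const_mul (th 5 t))).sub (l2.const_mul (th 7 t))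
    exact hp_eq (g := fun y => uU F δ t y 2) this (by ring)
  rw [Fin.sum_univ_three, pd_eq_of_hasPartial (hs 0) e0, pd_eq_of_hasPartial (hs 1) e1,
    pd_eq_of_hasPartial (hs 2) e2]
  have : ∑ i, (g1' (F.rule i) (x 0) + g2' (F.rule i) (x 1)) * q3' F i (x 2) =
      ∑ i, g1' (F.rule i) (x 0) * q3' F i (x 2) + ∑ i, g2' (F.rule i) (x 1) * q3' F i (x 2) := by
    rw [← Finset.sum_add_distrib]
    exact Finset.sum_congr rfl fun i _ => by ring
  rw [this]
  ring

/-! ### pieces of trajectories -/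

lemma mapR_eq (R : Rule) (P : ℚ × ℚ) :
    mapR R P.1 P.2 = (((R.map P).1 : ℝ), ((R.map P).2 : ℝ)) := by
  simp [mapR, Rule.map]

/-- one period for a point of a source box -/
theorem uU_step (hM : Margin F δ) (k : ℕ) (i : Fin F.n) (P : ℚ × ℚ)
    (hP : ((F.rule i).src).Mem P) :
    ∃ Y : ℝ → Fin 3 → ℝ, Y k = ![(P.1 : ℝ), (P.2 : ℝ), 0] ∧
      Y (k + 1) = ![(((F.rule i).map P).1 : ℝ), (((F.rule i).map P).2 : ℝ), 0] ∧
      ∀ t ∈ Icc (k : ℝ) (k + 1), HasDerivAt Y (uU F δ t (Y t)) t ∧ -1 / 4 ≤ Y t 2 ∧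
        Y t 2 ≤ 1 / 4 := by
  refine ⟨fun t => pth F i P.1 P.2 (t - k), ?_, ?_, ?_⟩
  · show pth F i P.1 P.2 (k - k) = _
    rw [sub_self, pth_zero]
  · show pth F i P.1 P.2 (k + 1 - k) = _
    rw [add_sub_cancel_left, pth_one, mapR_eq]
  · intro t ht
    have h1 := pth_ode i hM (Box.mem_real hP) (τ := t - k) (by linarith [ht.1])
      (by linarith [ht.2])
    have h2 := h1.comp_sub_const t k
    have h3 : uU F δ t (pth F i P.1 P.2 (t - k)) = uU F δ (t - k) (pth F i P.1 P.2 (t - k)) := by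
      have := uU_add_int F δ (t - k) k (pth F i P.1 P.2 (t - k))
      rw [← this]
      push_cast
      ring_nf
    refine ⟨?_, ?_, ?_⟩
    · show HasDerivAt _ (uU F δ t (pth F i P.1 P.2 (t - k))) t
      rw [h3]
      exact h2
    · show -1 / 4 ≤ pth F i P.1 P.2 (t - k) 2
      have := (pth_height i (x := P.1) (y := P.2) (t - k)).1
      linarith
    · show pth F i P.1 P.2 (t - k) 2 ≤ 1 / 4
      exact (pth_height i (x := P.1) (y := P.2) (t - k)).2.le

lemma bx_nonneg {B : Box} (hB : B.Good) (hδ : (0 : ℝ) < (δ : ℝ)) (x : E3) : 0 ≤ bx B δ x := by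
  have key : ∀ {A C : ℝ} (_ : A ≤ C) (s : ℝ), 0 ≤ lin 0 1 A C δ s := by
    intro A C hAC s
    unfold lin
    refine div_nonneg ?_ kappa_pos.le
    rw [zero_mul, zero_add, one_mul, per]
    refine tsum_nonneg fun m => ?_
    unfold cb pb
    rw [pow_zero, one_mul, pil]
    have := sig_mono (a := 1 / (δ : ℝ) * (s + m) - (A / δ - 1) - ((C - A) / δ + 2))
      (b := 1 / (δ : ℝ) * (s + m) - (A / δ - 1)) (by
        have := len_nonneg hδ hAC
        linarith)
    linarith
  exact mul_nonneg (key (Good.le1 hB) _) (key (Good.le2 hB) _)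

/-- the lift of a point of a halting box -/
theorem uU_halt (hM : Margin F δ) (k : ℕ) (j : Fin F.m) (P : ℚ × ℚ) (hP : (F.halt j).Mem P) :
    ∃ (Y : ℝ → Fin 3 → ℝ) (s : ℝ), (k : ℝ) + 1 / 4 ≤ s ∧ Y k = ![(P.1 : ℝ), (P.2 : ℝ), 0] ∧
      Y s = ![(P.1 : ℝ), (P.2 : ℝ), 1 / 2] ∧
      ∀ t ∈ Icc (k : ℝ) s, HasDerivAt Y (uU F δ t (Y t)) t := by
  set x0 : E3 := ![(P.1 : ℝ), (P.2 : ℝ), 0] with hx0
  set c := liftV F δ x0 with hc
  have hdep : ∀ z : ℝ, liftV F δ ![(P.1 : ℝ), (P.2 : ℝ), z] = c := fun z => rfl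
  have hc2 : 1 / 2 ≤ c := by
    have h1 : bx (F.halt j) δ x0 = 1 := bx_in (F.halt_good j) hM.pos hM.le (Box.mem_real hP)
    have h2 : 1 / 2 * bx (F.halt j) δ x0 ≤ ∑ j, 1 / 2 * bx (F.halt j) δ x0 :=
      Finset.single_le_sum (f := fun j => 1 / 2 * bx (F.halt j) δ x0)
        (fun i _ => mul_nonneg (by norm_num) (bx_nonneg (F.halt_good i) hM.posR _))
        (Finset.mem_univ j)
    have h3 : 0 ≤ ∑ i, ((hgt F i : ℚ) : ℝ) * bx (F.rule i).src δ x0 :=
      Finset.sum_nonneg fun i _ => mul_nonneg (by exact_mod_cast (hgt_pos F i).le)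
        (bx_nonneg (F.rule_good i).1 hM.posR _)
    rw [hc, liftV]
    rw [h1] at h2
    linarith
  -- the time at which the height `1/2` is reached
  have hcont : Continuous fun t => c * Th 3 t := by
    unfold Th
    have := continuous_sig
    fun_prop
  obtain ⟨τ, hτ, hτ2⟩ : ∃ τ ∈ Icc (0 : ℝ) (1 / 2), c * Th 3 τ = 1 / 2 := by
    have h1 := intermediate_value_Icc (a := (0 : ℝ)) (b := 1 / 2) (by norm_num)
      hcont.continuousOn
    have h2 : (1 / 2 : ℝ) ∈ Icc (c * Th 3 0) (c * Th 3 (1 / 2)) := by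
      rw [Th_zero (by norm_num), Th_one (by norm_num)]
      constructor <;> linarith
    exact h1 h2
  have hτ3 : 1 / 4 ≤ τ := by
    by_contra hlt
    rw [Th_zero (by linarith)] at hτ2
    norm_num at hτ2
  refine ⟨fun t => ![(P.1 : ℝ), (P.2 : ℝ), c * Th 3 (t - k)], k + τ, by linarith, ?_, ?_, ?_⟩
  · show ![(P.1 : ℝ), (P.2 : ℝ), c * Th 3 (k - k)] = _
    rw [sub_self, Th_zero (by norm_num), mul_zero]
  · show ![(P.1 : ℝ), (P.2 : ℝ), c * Th 3 (k + τ - k)] = _
    rw [add_sub_cancel_left, hτ2]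
  · intro t ht
    set r := t - k with hr
    have hr0 : 0 ≤ r := by linarith [ht.1]
    have hr1 : r ≤ 1 / 2 := by linarith [ht.2, hτ.2]
    have h3 : ∀ y, uU F δ t y = uU F δ r y := by
      intro y
      have := uU_add_int F δ r k y
      rw [← this, hr]
      push_cast
      ring_nf
    rw [h3]
    have t3 := th_eq (b := 3) (by norm_num) (by norm_num) hr0 (by linarith : r ≤ 1)
    have t5 : th 5 r = 0 := by
      rw [th_eq (by norm_num) (by norm_num) hr0 (by linarith : r ≤ 1),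
        show rho (8 * r - 5) = rb 5 r from rfl, rb_zero (Or.inl (by linarith))]
      simp
    have t7 : th 7 r = 0 := by
      rw [th_eq (by norm_num) (by norm_num) hr0 (by linarith : r ≤ 1),
        show rho (8 * r - 7) = rb 7 r from rfl, rb_zero (Or.inl (by linarith))]
      simp
    rw [hasDerivAt_pi]
    intro i
    fin_cases i
    · show HasDerivAt (fun _ => (P.1 : ℝ)) (th 5 r * _) t
      rw [t5, zero_mul]
      exact hasDerivAt_const _ _
    · show HasDerivAt (fun _ => (P.2 : ℝ)) (th 5 r * _) t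
      rw [t5, zero_mul]
      exact hasDerivAt_const _ _
    · show HasDerivAt (fun t => c * Th 3 (t - k)) (th 3 r * liftV F δ
        ![(P.1 : ℝ), (P.2 : ℝ), c * Th 3 (t - k)] + th 5 r * _ - th 7 r * _) t
      rw [t5, t7, zero_mul, zero_mul, hdep, add_zero, sub_zero, mul_comm (th 3 r)]
      have d3 := hasDerivAt_Th 3 r
      rw [← t3] at d3
      exact (d3.comp_sub_const t k).const_mul c

/-! ### existence of a margin -/

lemma exists_gap {B B' : Box} (h : B.Sep B') : ∃ d : ℚ, 0 < d ∧ ∀ e, e ≤ d → SepBy (2 * e) B B' := by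
  rcases h with (h | h) | (h | h)
  · exact ⟨(B'.a1 - (B.a1 + B.w1)) / 2, by linarith, fun e he => Or.inl (Or.inl (by linarith))⟩
  · exact ⟨(B.a1 - (B'.a1 + B'.w1)) / 2, by linarith, fun e he => Or.inl (Or.inr (by linarith))⟩
  · exact ⟨(B'.a2 - (B.a2 + B.w2)) / 2, by linarith, fun e he => Or.inr (Or.inl (by linarith))⟩
  · exact ⟨(B.a2 - (B'.a2 + B'.w2)) / 2, by linarith, fun e he => Or.inr (Or.inr (by linarith))⟩

lemma exists_le_all {ι : Type*} [Finite ι] (d : ι → ℚ) (hd : ∀ i, 0 < d i) :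
    ∃ e : ℚ, 0 < e ∧ ∀ i, e ≤ d i := by
  classical
  cases nonempty_fintype ι
  rcases isEmpty_or_nonempty ι with h | h
  · exact ⟨1, one_pos, fun i => (h.false i).elim⟩
  · obtain ⟨i, hi⟩ := Finite.exists_min d
    exact ⟨d i, hd i, hi⟩

theorem exists_margin (F : PAM) : ∃ δ : ℚ, Margin F δ := by
  classical
  have h1 : ∀ p : {p : Fin F.n × Fin F.n // p.1 ≠ p.2}, ∃ d : ℚ, 0 < d ∧
      ∀ e, e ≤ d → SepBy (2 * e) (F.rule p.1.1).src (F.rule p.1.2).src := fun p =>
    exists_gap (F.src_sep _ _ p.2)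
  have h2 : ∀ p : Fin F.n × Fin F.m, ∃ d : ℚ, 0 < d ∧
      ∀ e, e ≤ d → SepBy (2 * e) (F.rule p.1).src (F.halt p.2) := fun p =>
    exists_gap (F.halt_sep _ _)
  have h3 : ∀ p : {p : Fin F.n × Fin F.n // p.1 ≠ p.2}, ∃ d : ℚ, 0 < d ∧
      ∀ e, e ≤ d → SepBy (2 * e) (F.rule p.1.1).tgt (F.rule p.1.2).tgt := fun p =>
    exists_gap (F.tgt_sep _ _ p.2)
  choose d1 p1 q1 using h1
  choose d2 p2 q2 using h2
  choose d3 p3 q3 using h3
  obtain ⟨e1, f1, g1⟩ := exists_le_all d1 p1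
  obtain ⟨e2, f2, g2⟩ := exists_le_all d2 p2
  obtain ⟨e3, f3, g3⟩ := exists_le_all d3 p3
  refine ⟨min (1 / 8) (min e1 (min e2 e3)), ?_, min_le_left _ _, ?_, ?_, ?_⟩
  · exact lt_min (by norm_num) (lt_min f1 (lt_min f2 f3))
  · intro i j hij
    exact q1 ⟨(i, j), hij⟩ _ (((min_le_right _ _).trans (min_le_left _ _)).trans (g1 _))
  · intro i j
    exact q2 (i, j) _ (((min_le_right _ _).trans ((min_le_right _ _).trans
      (min_le_left _ _))).trans (g2 _))
  · intro i j hij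
    exact q3 ⟨(i, j), hij⟩ _ (((min_le_right _ _).trans ((min_le_right _ _).trans
      (min_le_right _ _))).trans (g3 _))

end Vale.Agent.P113
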