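import Vale.Agent.P113.H468.Geo2
import Vale.Agent.P113.Assembly

/-!
# P113 : every piecewise affine system is realised by a periodic velocity field
-/

open Set

namespace Vale.Agent.P113

open H760

/-- the flow realising a piecewise affine system -/
theorem exists_geomField (F : PAM) : ∃ u : ℝ → (Fin 3 → ℝ) → Fin 3 → ℝ, GeomField F u := by
  obtain ⟨δ, hM⟩ := exists_margin F
  exact ⟨uU F δ, padm_uU hM, uU_div hM, fun t h0 h1 x => uU_zero F δ h0 h1 x,
    fun k i P hP => uU_step hM k i P hP, fun k j P hP => uU_halt hM k j P hP⟩

end Vale.Agent.P113
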