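import Vale.Agent.P113.H468.Flow1D

/-!
# P113 : periodized cutoff functions which are affine on an interval; time profiles
-/

open MeasureTheory Set Filter Topology

namespace Vale.Agent.P113

/-- the bump `s ↦ s^k π_l (a s - b)` -/
noncomputable def pb (k : ℕ) (l a b s : ℝ) : ℝ := s ^ k * pil l (a * s - b)

/-- its derivative -/
noncomputable def pb' (k : ℕ) (l a b s : ℝ) : ℝ :=
  k * s ^ (k - 1) * pil l (a * s - b) + s ^ k * (a * (rho (a * s - b) - rho (a * s - b - l)))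

lemma hasDerivAt_pb (k : ℕ) (l a b s : ℝ) : HasDerivAt (pb k l a b) (pb' k l a b s) s := by
  have h1 : HasDerivAt (fun s : ℝ => a * s - b) a s := by
    simpa using ((hasDerivAt_id s).const_mul a).sub_const b
  have h2 := (hasDerivAt_pil l (a * s - b)).comp s h1
  have h3 := (hasDerivAt_pow k s).mul h2
  have e : pb' k l a b s = k * s ^ (k - 1) * (pil l ∘ fun s => a * s - b) s +
      s ^ k * ((rho (a * s - b) - rho (a * s - b - l)) * a) := by
    simp only [pb', Function.comp]; ring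
  rw [e]
  exact h3

lemma contDiff_pb {n : ℕ∞} (k : ℕ) (l a b : ℝ) : ContDiff ℝ n (pb k l a b) := by
  unfold pb
  exact (contDiff_id.pow k).mul ((contDiff_pil l).comp
    ((contDiff_const.mul contDiff_id).sub contDiff_const))

lemma contDiff_pb' {n : ℕ∞} (k : ℕ) (l a b : ℝ) : ContDiff ℝ n (pb' k l a b) := by
  unfold pb'
  have h1 : ContDiff ℝ n (fun s : ℝ => a * s - b) :=
    (contDiff_const.mul contDiff_id).sub contDiff_const
  exact ((contDiff_const.mul (contDiff_id.pow (k - 1))).mul ((contDiff_pil l).comp h1)).add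
    ((contDiff_id.pow k).mul (contDiff_const.mul
      ((contDiff_rho.comp h1).sub (contDiff_rho.comp (h1.sub contDiff_const)))))

section cut

variable {A B δ : ℝ}

/-- the parameters of the plateau `[A, B]` with margin `2 δ` -/
lemma arg_le (hδ : 0 < δ) {s : ℝ} (h : s ≤ A - 2 * δ) : 1 / δ * s - (A / δ - 1) ≤ -1 := by
  have : 1 / δ * s - (A / δ - 1) = (s - A) / δ + 1 := by ring
  rw [this]
  have h2 : (s - A) / δ ≤ -2 := by
    rw [div_le_iff₀ hδ]; linarith
  linarith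

lemma arg_ge (hδ : 0 < δ) {s : ℝ} (h : B + 2 * δ ≤ s) :
    ((B - A) / δ + 2) + 1 ≤ 1 / δ * s - (A / δ - 1) := by
  have e : 1 / δ * s - (A / δ - 1) = (B - A) / δ + (s - B) / δ + 1 := by ring
  rw [e]
  have h2 : 2 ≤ (s - B) / δ := by
    rw [le_div_iff₀ hδ]; linarith
  linarith

lemma arg_in1 (hδ : 0 < δ) {s : ℝ} (h : A ≤ s) : 1 ≤ 1 / δ * s - (A / δ - 1) := by
  have e : 1 / δ * s - (A / δ - 1) = (s - A) / δ + 1 := by ring
  rw [e]
  have : 0 ≤ (s - A) / δ := div_nonneg (by linarith) hδ.le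
  linarith

lemma arg_in2 (hδ : 0 < δ) {s : ℝ} (h : s ≤ B) :
    1 / δ * s - (A / δ - 1) ≤ ((B - A) / δ + 2) - 1 := by
  have e : ((B - A) / δ + 2) - 1 - (1 / δ * s - (A / δ - 1)) = (B - s) / δ := by ring
  have : 0 ≤ (B - s) / δ := div_nonneg (by linarith) hδ.le
  linarith

lemma len_nonneg (hδ : 0 < δ) (hAB : A ≤ B) : 0 ≤ (B - A) / δ + 2 := by
  have : 0 ≤ (B - A) / δ := div_nonneg (by linarith) hδ.le
  linarith

/-- `[A,B]`-plateau bump, plain -/
noncomputable def cb (k : ℕ) (A B δ : ℝ) : ℝ → ℝ := pb k ((B - A) / δ + 2) (1 / δ) (A / δ - 1)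

noncomputable def cb' (k : ℕ) (A B δ : ℝ) : ℝ → ℝ := pb' k ((B - A) / δ + 2) (1 / δ) (A / δ - 1)

lemma cb_in (hδ : 0 < δ) (k : ℕ) {s : ℝ} (h1 : A ≤ s) (h2 : s ≤ B) :
    cb k A B δ s = s ^ k * kappa := by
  rw [cb, pb, pil_plateau (arg_in1 hδ h1) (arg_in2 hδ h2)]

lemma cb_out (hδ : 0 < δ) (hAB : A ≤ B) (k : ℕ) {s : ℝ} (h : s ≤ A - 2 * δ ∨ B + 2 * δ ≤ s) :
    cb k A B δ s = 0 := by
  rw [cb, pb]
  rcases h with h | h
  · rw [pil_of_le (len_nonneg hδ hAB) (arg_le hδ h), mul_zero]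
  · rw [pil_of_ge (len_nonneg hδ hAB) (arg_ge hδ h), mul_zero]

lemma cb'_in (hδ : 0 < δ) (k : ℕ) {s : ℝ} (h1 : A ≤ s) (h2 : s ≤ B) :
    cb' k A B δ s = k * s ^ (k - 1) * kappa := by
  have h3 := arg_in1 hδ h1
  have h4 := arg_in2 (A := A) hδ h2
  rw [cb', pb', pil_plateau h3 h4, rho_zero (s := 1 / δ * s - (A / δ - 1))
    (h3.trans (le_abs_self _)), rho_zero (s := 1 / δ * s - (A / δ - 1) - ((B - A) / δ + 2))]
  · ring
  · rw [abs_of_nonpos (by linarith)]; linarith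

lemma cb'_out (hδ : 0 < δ) (hAB : A ≤ B) (k : ℕ) {s : ℝ} (h : s ≤ A - 2 * δ ∨ B + 2 * δ ≤ s) :
    cb' k A B δ s = 0 := by
  have hl := len_nonneg hδ hAB
  rw [cb', pb']
  rcases h with h | h
  · have h3 := arg_le hδ h
    rw [pil_of_le hl h3, rho_zero (s := 1 / δ * s - (A / δ - 1)),
      rho_zero (s := 1 / δ * s - (A / δ - 1) - ((B - A) / δ + 2))]
    · ring
    · rw [abs_of_nonpos (by linarith)]; linarith
    · rw [abs_of_nonpos (by linarith)]; linarith
  · have h3 := arg_ge (A := A) hδ h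
    rw [pil_of_ge hl h3, rho_zero (s := 1 / δ * s - (A / δ - 1)),
      rho_zero (s := 1 / δ * s - (A / δ - 1) - ((B - A) / δ + 2))]
    · ring
    · rw [abs_of_nonneg (by linarith)]; linarith
    · rw [abs_of_nonneg (by linarith)]; linarith

lemma hasCompactSupport_cb (hδ : 0 < δ) (hAB : A ≤ B) (k : ℕ) :
    HasCompactSupport (cb k A B δ) := by
  apply HasCompactSupport.intro (isCompact_Icc (a := A - 2 * δ) (b := B + 2 * δ))
  intro x hx
  rw [mem_Icc, not_and_or, not_le, not_le] at hx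
  exact cb_out hδ hAB k (hx.imp le_of_lt le_of_lt)

lemma hasCompactSupport_cb' (hδ : 0 < δ) (hAB : A ≤ B) (k : ℕ) :
    HasCompactSupport (cb' k A B δ) := by
  apply HasCompactSupport.intro (isCompact_Icc (a := A - 2 * δ) (b := B + 2 * δ))
  intro x hx
  rw [mem_Icc, not_and_or, not_le, not_le] at hx
  exact cb'_out hδ hAB k (hx.imp le_of_lt le_of_lt)

/-- a function with support in `[0,1]` agrees with its periodization on `[0,1]` -/
lemma per_eq_self {g : ℝ → ℝ} (hg : ∀ x, x ≤ 0 ∨ 1 ≤ x → g x = 0) {x : ℝ} (h0 : 0 ≤ x)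
    (h1 : x ≤ 1) : per g x = g x := by
  apply per_eq_single
  intro m hm
  apply hg
  rcases lt_or_gt_of_ne hm with h | h
  · left
    have : (m : ℝ) ≤ -1 := by exact_mod_cast (by omega : m ≤ -1)
    linarith
  · right
    have : (1 : ℝ) ≤ m := by exact_mod_cast (by omega : 1 ≤ m)
    linarith

/-- `x ↦ (α x + β) χ(x)`, periodized: `χ = 1` on `[A, B]`, `0` off `(A - 2δ, B + 2δ)` -/
noncomputable def lin (α β A B δ x : ℝ) : ℝ :=
  (α * per (cb 1 A B δ) x + β * per (cb 0 A B δ) x) / kappa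

/-- its derivative -/
noncomputable def lin' (α β A B δ x : ℝ) : ℝ :=
  (α * per (cb' 1 A B δ) x + β * per (cb' 0 A B δ) x) / kappa

variable {α β : ℝ}

lemma hasDerivAt_lin (hδ : 0 < δ) (hAB : A ≤ B) (x : ℝ) :
    HasDerivAt (lin α β A B δ) (lin' α β A B δ x) x := by
  have h1 := fun k => hasDerivAt_per (fun x => hasDerivAt_pb k ((B - A) / δ + 2) (1 / δ)
    (A / δ - 1) x) (hasCompactSupport_cb hδ hAB k) x
  exact (((h1 1).const_mul α).add ((h1 0).const_mul β)).div_const kappa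

lemma contDiff_lin {n : ℕ∞} (hδ : 0 < δ) (hAB : A ≤ B) : ContDiff ℝ n (lin α β A B δ) := by
  unfold lin
  exact ((contDiff_const.mul (contDiff_per (contDiff_pb _ _ _ _)
    (hasCompactSupport_cb hδ hAB 1))).add (contDiff_const.mul
    (contDiff_per (contDiff_pb _ _ _ _) (hasCompactSupport_cb hδ hAB 0)))).div_const _

lemma contDiff_lin' {n : ℕ∞} (hδ : 0 < δ) (hAB : A ≤ B) : ContDiff ℝ n (lin' α β A B δ) := by
  unfold lin'
  exact ((contDiff_const.mul (contDiff_per (contDiff_pb' _ _ _ _)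
    (hasCompactSupport_cb' hδ hAB 1))).add (contDiff_const.mul
    (contDiff_per (contDiff_pb' _ _ _ _) (hasCompactSupport_cb' hδ hAB 0)))).div_const _

lemma lin_add_int (x : ℝ) (k : ℤ) : lin α β A B δ (x + k) = lin α β A B δ x := by
  simp only [lin, per_add_int]

lemma lin'_add_int (x : ℝ) (k : ℤ) : lin' α β A B δ (x + k) = lin' α β A B δ x := by
  simp only [lin', per_add_int]

section inner

variable (hδ : 0 < δ) (hAB : A ≤ B) (hA : 0 ≤ A - 2 * δ) (hB : B + 2 * δ ≤ 1)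

include hδ hAB hA hB

lemma cb_supp (k : ℕ) {x : ℝ} (h : x ≤ 0 ∨ 1 ≤ x) : cb k A B δ x = 0 :=
  cb_out hδ hAB k (h.imp (fun h => by linarith) (fun h => by linarith))

lemma cb'_supp (k : ℕ) {x : ℝ} (h : x ≤ 0 ∨ 1 ≤ x) : cb' k A B δ x = 0 :=
  cb'_out hδ hAB k (h.imp (fun h => by linarith) (fun h => by linarith))

lemma lin_in {x : ℝ} (h1 : A ≤ x) (h2 : x ≤ B) : lin α β A B δ x = α * x + β := by
  have h0 : 0 ≤ x := by linarith
  have h3 : x ≤ 1 := by linarith
  rw [lin, per_eq_self (fun x hx => cb_supp hδ hAB hA hB 1 hx) h0 h3,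
    per_eq_self (fun x hx => cb_supp hδ hAB hA hB 0 hx) h0 h3, cb_in hδ 1 h1 h2, cb_in hδ 0 h1 h2]
  have := kappa_pos.ne'
  field_simp

lemma lin'_in {x : ℝ} (h1 : A ≤ x) (h2 : x ≤ B) : lin' α β A B δ x = α := by
  have h0 : 0 ≤ x := by linarith
  have h3 : x ≤ 1 := by linarith
  rw [lin', per_eq_self (fun x hx => cb'_supp hδ hAB hA hB 1 hx) h0 h3,
    per_eq_self (fun x hx => cb'_supp hδ hAB hA hB 0 hx) h0 h3, cb'_in hδ 1 h1 h2,
    cb'_in hδ 0 h1 h2]
  have := kappa_pos.ne'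
  simp
  field_simp

lemma lin_out {x : ℝ} (h0 : 0 ≤ x) (h1 : x ≤ 1) (h : x ≤ A - 2 * δ ∨ B + 2 * δ ≤ x) :
    lin α β A B δ x = 0 := by
  rw [lin, per_eq_self (fun x hx => cb_supp hδ hAB hA hB 1 hx) h0 h1,
    per_eq_self (fun x hx => cb_supp hδ hAB hA hB 0 hx) h0 h1, cb_out hδ hAB 1 h,
    cb_out hδ hAB 0 h]
  simp

lemma lin'_out {x : ℝ} (h0 : 0 ≤ x) (h1 : x ≤ 1) (h : x ≤ A - 2 * δ ∨ B + 2 * δ ≤ x) :
    lin' α β A B δ x = 0 := by
  rw [lin', per_eq_self (fun x hx => cb'_supp hδ hAB hA hB 1 hx) h0 h1,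
    per_eq_self (fun x hx => cb'_supp hδ hAB hA hB 0 hx) h0 h1, cb'_out hδ hAB 1 h,
    cb'_out hδ hAB 0 h]
  simp

end inner

end cut

/-! ### time profiles -/

/-- `ρ(8 t - b)` -/
noncomputable def rb (b t : ℝ) : ℝ := rho (8 * t - b)

lemma contDiff_rb {n : ℕ∞} (b : ℝ) : ContDiff ℝ n (rb b) :=
  contDiff_rho.comp ((contDiff_const.mul contDiff_id).sub contDiff_const)

lemma rb_zero {b t : ℝ} (h : 8 * t ≤ b - 1 ∨ b + 1 ≤ 8 * t) : rb b t = 0 := by
  apply rho_zero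
  rcases h with h | h
  · rw [abs_of_nonpos (by linarith)]; linarith
  · rw [abs_of_nonneg (by linarith)]; linarith

lemma hasCompactSupport_rb (b : ℝ) : HasCompactSupport (rb b) := by
  apply HasCompactSupport.intro (isCompact_Icc (a := (b - 1) / 8) (b := (b + 1) / 8))
  intro x hx
  rw [mem_Icc, not_and_or, not_le, not_le] at hx
  exact rb_zero (hx.imp (fun h => by linarith) (fun h => by linarith))

/-- the time profile of the window `((b-1)/8, (b+1)/8)` mod `1` -/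
noncomputable def th (b t : ℝ) : ℝ := 8 * per (rb b) t / kappa

lemma contDiff_th {n : ℕ∞} (b : ℝ) : ContDiff ℝ n (th b) := by
  unfold th
  exact (contDiff_const.mul (contDiff_per (contDiff_rb b) (hasCompactSupport_rb b))).div_const _

lemma th_add_int (b t : ℝ) (k : ℤ) : th b (t + k) = th b t := by
  simp only [th, per_add_int]

lemma th_eq {b t : ℝ} (hb : 1 ≤ b) (hb' : b ≤ 7) (h0 : 0 ≤ t) (h1 : t ≤ 1) :
    th b t = 8 * rho (8 * t - b) / kappa := by
  rw [th, per_eq_self _ h0 h1]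
  · rfl
  · intro x hx
    exact rb_zero (hx.imp (fun h => by linarith) (fun h => by linarith))

/-- the primitive of the time profile -/
noncomputable def Th (b t : ℝ) : ℝ := sig (8 * t - b) / kappa

lemma hasDerivAt_Th (b t : ℝ) : HasDerivAt (Th b) (8 * rho (8 * t - b) / kappa) t := by
  have h1 : HasDerivAt (fun t : ℝ => 8 * t - b) 8 t := by
    simpa using ((hasDerivAt_id t).const_mul 8).sub_const b
  have h2 := ((hasDerivAt_sig (8 * t - b)).comp t h1).div_const kappa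
  have e : 8 * rho (8 * t - b) / kappa = rho (8 * t - b) * 8 / kappa := by ring
  rw [e]
  exact h2

lemma Th_nonneg (b t : ℝ) : 0 ≤ Th b t := div_nonneg (sig_nonneg _) kappa_pos.le

lemma Th_le_one (b t : ℝ) : Th b t ≤ 1 := by
  rw [Th, div_le_one kappa_pos]; exact sig_le_kappa _

lemma Th_zero {b t : ℝ} (h : 8 * t ≤ b - 1) : Th b t = 0 := by
  rw [Th, sig_of_le (by linarith), zero_div]

lemma Th_one {b t : ℝ} (h : b + 1 ≤ 8 * t) : Th b t = 1 := by
  rw [Th, sig_of_ge (by linarith), div_self kappa_pos.ne']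

end Vale.Agent.P113
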